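import Vale.Agent.Lib.P113.Main

namespace Vale.Agent.Results.P113.ExplicitForce

open Vale.Agent.Lib.P113

/-- For every viscosity `ν > 0` the explicit forces `theForce ν M w` are smooth and periodic in
space, are `1`-periodic in time and depend on `M` only for `t ≥ 1`, and the forced Navier-Stokes
system from rest has a global smooth solution, unique among classical solutions on each `[0,T]`,
whose (unique) particle trajectory from the origin meets the open set `Oset` if and only if `M`
halts on `w`. -/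
theorem result (ν : ℝ) (hν : 0 < ν) :
    IsOpen Oset ∧ (∀ (x : R3) (k : Fin 3 → ℤ), (x + fun i => (k i : ℝ)) ∈ Oset ↔ x ∈ Oset) ∧
    (∀ (M : Machine) (w : List M.Sym), SmoothForce (theForce ν M w)) ∧
    (∀ (M : Machine) (w : List M.Sym) (t : ℝ), 1 ≤ t →
      theForce ν M w (t + 1) = theForce ν M w t) ∧
    (∀ (M : Machine) (w w' : List M.Sym) (t : ℝ), 1 ≤ t → theForce ν M w t = theForce ν M w' t) ∧
    ∀ (M : Machine) (w : List M.Sym), ∃ (u : ℝ → R3 → R3) (p : ℝ → R3 → ℝ) (X : ℝ → R3),
      GlobalSmoothSol ν (theForce ν M w) u p ∧ UniqueClassical ν (theForce ν M w) u p ∧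
      IsTrajectory u 0 X ∧ (∀ X', IsTrajectory u 0 X' → ∀ t, 0 ≤ t → X' t = X t) ∧
      ((∃ t, 0 ≤ t ∧ X t ∈ Oset) ↔ M.Halts w) :=
  ⟨Oset_open, Oset_per, fun M _ => force_smooth M.code_valid ν _ _,
    fun _ _ _ ht => force_periodic ν _ _ _ ht,
    fun _ _ _ _ ht => force_machine_only ν _ _ _ _ _ ht,
    fun M w => main_dynamics hν M w⟩

end Vale.Agent.Results.P113.ExplicitForce
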