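import Vale.Agent.Lib.P113.Effective

namespace Vale.Agent.Results.P113.FullAnswer

open Vale.Agent.Lib.P113

/-- Question Q1 has an affirmative answer: for every computable viscosity `ν > 0` there are a point,
an open set of the torus and a force compiler such that for every Turing machine `M` and input `w`
the forced Navier-Stokes system from rest has a global smooth solution, unique among classical
solutions on each `[0,T]`, whose trajectory from the point meets the open set if and only if
`M` halts on `w`. -/
theorem result : ∀ ν : ℝ, 0 < ν → ComputableReal ν → HaltingDetection ν :=
  fun _ h0 hν => haltingDetection h0 hν

end Vale.Agent.Results.P113.FullAnswer
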