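import Vale.Agent.Lib.P113.Effective

namespace Vale.Agent.Results.P113.PlainStatement

open Vale.Agent.Lib.P113

/-- Question Q1 with its quantifiers written out.  For every computable viscosity `ν > 0` there are
a point `a`, an open periodic set `O`, a computable map `comp`, forces `F M w` and a time `T0` with:
every `F M w` is a smooth periodic force, `comp` returns a program for all its derivatives, after
time `T0` the force is periodic in time and depends on the machine only; and for every machine `M`
and input `w` the system with force `F M w` has a global smooth solution from rest, unique among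
classical solutions, whose unique trajectory from `a` meets `O` if and only if `M` halts on `w`. -/
theorem result : ∀ ν : ℝ, 0 < ν → ComputableReal ν →
    ∃ (a : R3) (O : Set R3) (comp : CompilerInput → Nat.Partrec.Code)
      (F : (M : Machine) → List M.Sym → ℝ → R3 → R3) (T0 : ℝ),
      IsOpen O ∧ (∀ (x : R3) (k : Fin 3 → ℤ), (x + fun i => (k i : ℝ)) ∈ O ↔ x ∈ O) ∧
      Computable comp ∧
      (∀ (M : Machine) (w : List M.Sym), SmoothForce (F M w) ∧
        IsProgramFor (comp (M.code, w.map (fun s : M.Sym => s.val))) (F M w)) ∧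
      (∀ M : Machine, ∃ P : ℝ, 0 < P ∧ ∀ (w : List M.Sym) (t : ℝ), T0 ≤ t →
        F M w (t + P) = F M w t) ∧
      (∀ (M : Machine) (w w' : List M.Sym) (t : ℝ), T0 ≤ t → F M w t = F M w' t) ∧
      ∀ (M : Machine) (w : List M.Sym), ∃ (u : ℝ → R3 → R3) (p : ℝ → R3 → ℝ) (X : ℝ → R3),
        GlobalSmoothSol ν (F M w) u p ∧ UniqueClassical ν (F M w) u p ∧
        IsTrajectory u a X ∧ (∀ X', IsTrajectory u a X' → ∀ t, 0 ≤ t → X' t = X t) ∧
        ((∃ t, 0 ≤ t ∧ X t ∈ O) ↔ M.Halts w) := by
  intro ν h0 hν
  obtain ⟨a, O, comp, F, T0, hO, hper, hc, h⟩ := haltingDetection h0 hν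
  exact ⟨a, O, comp, F, T0, hO, hper, hc.computable, fun M w => ⟨hc.smooth M w, hc.program M w⟩,
    hc.periodic, hc.machine_only, h⟩

end Vale.Agent.Results.P113.PlainStatement
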